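import Vale.Agent.P022D.Sel.Defs
import Vale.Agent.P022E.Gp.Defs

/-!
# P022, non solvable case, block Sel: the residual hypothesis and the statements
-/

set_option linter.all false

noncomputable section

namespace Vale.Agent.P022E.Sel

open Vale.Agent.P022
open Vale.Agent.P027M.S (mx)

export Vale.Agent.P022D.Sel (M2 Ginf Stab IsDec Sc TanP Tan Aux CONG)

/-- `ρ` has open kernel, determinant one, eigenvalues in `F` and non solvable image
(`H` plays no role) -/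
structure Dh {F : Type} [Field F] (ρ : GQ →* GL (Fin 2) F) (H : Subgroup GQ) : Prop where
  opn : IsOpen {g : GQ | ρ g = 1}
  det : ∀ g, (mx ρ g).det = 1
  eig : ∀ g, ∃ a b : F, (mx ρ g).trace = a + b ∧ (mx ρ g).det = a * b
  nsv : ¬ IsSolvable ρ.range

theorem Dh.spl {F : Type} [Field F] {ρ : GQ →* GL (Fin 2) F} {H : Subgroup GQ} (h : Dh ρ H)
    (g : GQ) : ∃ a : F, a ^ 2 - (mx ρ g).trace * a + (mx ρ g).det = 0 := by
  obtain ⟨a, b, h1, h2⟩ := h.eig g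
  exact ⟨a, by rw [h1, h2]; ring⟩

/-- **The output of the block.** `T` contains `0` (the infinite place) and `2`. -/
def SEL : Prop := ∀ (F : Type) [Field F] [Finite F] [CharP F 2] (ρ : GQ →* GL (Fin 2) F)
  (H : Subgroup GQ) (T : Finset ℕ) (D : ℕ → Set GQ), Dh ρ H → 0 ∈ T → 2 ∈ T →
  (∀ l ∈ T, IsDec l (D l)) →
  ∃ (r : ℕ) (σ : Fin r → GQ) (U : Subgroup GQ) (A : Finset ℕ), IsOpen (U : Set GQ) ∧ U.Normal ∧
    (∀ g ∈ U, ρ g = 1) ∧ T ⊆ A ∧ (∀ i, σ i ∈ Ginf ∧ (mx ρ (σ i)).trace ≠ 0) ∧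
    ∀ q : Fin r → ℕ, Function.Injective q → (∀ i, Aux ρ U A (σ i) (q i)) →
      Tan ρ T (Finset.univ.image q) D (2 * r + 5)

/-- **Existence of the auxiliary primes.** -/
def AUX : Prop := ∀ (F : Type) [Field F] [CharP F 2] (ρ : GQ →* GL (Fin 2) F) (H : Subgroup GQ),
  Dh ρ H → ∀ (U : Subgroup GQ) (A : Finset ℕ) (σ : GQ), IsOpen (U : Set GQ) →
  (mx ρ σ).trace ≠ 0 → ∃ q : ℕ, Aux ρ U A σ q

end Vale.Agent.P022E.Sel
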