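import Vale.Agent.P022D.Sel.Art
import Vale.Agent.P022E.Sel.Defs

namespace Vale.Agent.P022E.Sel.ArtA
export Vale.Agent.P022D.Sel.ArtA (
  prime_in up val_out mem_conj stab val nr_ne conj_eq inv_j fr_conj fr_mv indep val_in)
end Vale.Agent.P022E.Sel.ArtA

namespace Vale.Agent.P022E.Sel
export Vale.Agent.P022D.Sel (
  art)
end Vale.Agent.P022E.Sel
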