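import Vale.Agent.P022D.Sel.Count
import Vale.Agent.P022E.Sel.Defs

namespace Vale.Agent.P022E.Sel.Count
export Vale.Agent.P022D.Sel.Count (
  Un val_iter pr_ext ov_fin ev tG pre ev_ne split ev_add sq_cm res_apply val_of cm_mv
  lam_apply cut mv_cm ord_of pa_apply fin_supp pa rank_le res tB key sy syH disj lam mv_ov
  ord_mul tB_iter)
end Vale.Agent.P022E.Sel.Count

namespace Vale.Agent.P022E.Sel
export Vale.Agent.P022D.Sel (
  count)
end Vale.Agent.P022E.Sel
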