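import Vale.Agent.P022D.Sel.Inj
import Vale.Agent.P022E.Sel.Defs

namespace Vale.Agent.P022E.Sel
end Vale.Agent.P022E.Sel

namespace Vale.Agent.P022E.Sel.Inj
export Vale.Agent.P022D.Sel.Inj (
  gal norm_eq opnGK pow_odd)
end Vale.Agent.P022E.Sel.Inj
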