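import Vale.Agent.P022D.Sel.Law
import Vale.Agent.P022E.Sel.Defs

namespace Vale.Agent.P022E.Sel
export Vale.Agent.P022D.Sel (
  law)
end Vale.Agent.P022E.Sel

namespace Vale.Agent.P022E.Sel.LawP
export Vale.Agent.P022D.Sel.LawP (
  approx ordv_pow pw fin_ov bin below_ne)
end Vale.Agent.P022E.Sel.LawP
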