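import Vale.Agent.P022D.Sel.Odd
import Vale.Agent.P022E.Sel.Defs

namespace Vale.Agent.P022E.Sel.OddP
export Vale.Agent.P022D.Sel.OddP (
  gn_open Rt rt_fin Gn fin_root compact_GQ pow_mem pow_fix red)
end Vale.Agent.P022E.Sel.OddP

namespace Vale.Agent.P022E.Sel
export Vale.Agent.P022D.Sel (
  odd cong)
end Vale.Agent.P022E.Sel
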