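import Vale.Agent.P022D.Sel.Pl
import Vale.Agent.P022E.Sel.Defs

namespace Vale.Agent.P022E.Sel.Pl
export Vale.Agent.P022D.Sel.Pl (
  bl_ov below_rat mem_bl bl_right rank_union fin_ov bl_left smul_nat bl_mv prime_smul
  mem_below mem_smul mv_ov bl bl_eq bl_onto rank_fin)
end Vale.Agent.P022E.Sel.Pl

namespace Vale.Agent.P022E.Sel
export Vale.Agent.P022D.Sel (
  sum pl)
end Vale.Agent.P022E.Sel
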