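import Vale.Agent.P022D.Sel.Sym
import Vale.Agent.P022E.Sel.Defs

namespace Vale.Agent.P022E.Sel.Sym
export Vale.Agent.P022D.Sel.Sym (
  mem_iff sq_iff fin_field near below val_eq)
end Vale.Agent.P022E.Sel.Sym

namespace Vale.Agent.P022E.Sel
export Vale.Agent.P022D.Sel (
  sym big)
end Vale.Agent.P022E.Sel
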