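import Vale.Agent.P022D.Sel.Unitx
import Vale.Agent.P022E.Sel.Defs

namespace Vale.Agent.P022E.Sel
export Vale.Agent.P022D.Sel (
  unitx)
end Vale.Agent.P022E.Sel

namespace Vale.Agent.P022E.Sel.Ux
export Vale.Agent.P022D.Sel.Ux (
  val_unit c core o c_inj sum_ι el_ι ι ord_c c_mul gens el_ne ord_prod c_one ov_fin el_inj)
end Vale.Agent.P022E.Sel.Ux
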