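import Vale.Agent.P022E.Sel.Defs
import Vale.Agent.P022D.Sel.All

/-!
# P022, non solvable case, block Sel: existence of the auxiliary primes
-/

set_option linter.all false

noncomputable section

namespace Vale.Agent.P022E.Sel

open Vale.Agent.P022
open Vale.Agent.P027M.S (mx)

theorem tr_pow_eig {F : Type} [Field F] {X : M2 F} {a b : F} (h1 : X.trace = a + b)
    (h2 : X.det = a * b) (j : ℕ) :
    (X ^ j).trace = a ^ j + b ^ j ∧ (X ^ (j + 1)).trace = a ^ (j + 1) + b ^ (j + 1) := by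
  induction j with
  | zero => exact ⟨by simp [one_add_one_eq_two], by simpa using h1⟩
  | succ j ih =>
    refine ⟨ih.2, ?_⟩
    have e : X * X = X.trace • X - X.det • (1 : M2 F) := by
      ext i k
      fin_cases i <;> fin_cases k <;>
        simp [Matrix.mul_apply, Fin.sum_univ_two, Matrix.trace_fin_two, Matrix.det_fin_two] <;> ring
    rw [pow_succ, pow_succ, mul_assoc, e, mul_sub, Matrix.mul_smul, Matrix.mul_smul, mul_one,
      ← pow_succ, Matrix.trace_sub, Matrix.trace_smul, Matrix.trace_smul, ih.1, ih.2, h1, h2,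
      smul_eq_mul, smul_eq_mul]
    ring

open Vale.Agent.P022D.Sel.AuxP in
theorem aux (hD : P027M.TW.Spec_DENS) : AUX := by
  intro F _ _ ρ H h U A σ hU hσ
  have hV : IsOpen ((U ⊓ ρ.ker : Subgroup GQ) : Set GQ) := hU.inter h.opn
  obtain ⟨a, b, h1, h2⟩ := h.eig σ
  have y0 : b ≠ 0 := fun e => by
    rw [h.det, e, mul_zero] at h2
    exact one_ne_zero h2
  set ψ : F := a / b with hψ
  have hsc : ∀ j : ℕ, Sc ρ (σ ^ j) → ψ ^ j = 1 := fun j hj => by
    have e := (tr_pow_eig h1 h2 j).1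
    have e2 : mx ρ σ ^ j = mx ρ (σ ^ j) := by simp only [mx, map_pow, Units.val_pow_eq_pow_val]
    rw [e2, Matrix.trace_fin_two, hj.2.2, CharTwo.add_self_eq_zero, eq_comm,
      CharTwo.add_eq_zero] at e
    rw [hψ, div_pow, e, div_self (pow_ne_zero _ y0)]
  have hone : ∀ j : ℕ, ρ (σ ^ j) = 1 → ψ ^ j = 1 := fun j hj => hsc j (by
    unfold Sc mx
    rw [hj]
    simp)
  have ψ1 : ψ ≠ 1 := fun e => hσ (by rw [h1, (div_eq_one_iff_eq y0).1 e, CharTwo.add_self_eq_zero])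
  have t1 : orderOf ψ ≠ 1 := fun e => ψ1 (orderOf_eq_one_iff.1 e)
  obtain ⟨p, hp, p2, hpt⟩ : ∃ p : ℕ, p.Prime ∧ p ≠ 2 ∧ p ∣ orderOf ψ := by
    by_cases t0 : orderOf ψ = 0
    · exact ⟨3, Nat.prime_three, by norm_num, t0 ▸ dvd_zero 3⟩
    · refine ⟨(orderOf ψ).minFac, Nat.minFac_prime t1, fun e => ?_, Nat.minFac_dvd _⟩
      obtain ⟨j, hj⟩ : 2 ∣ orderOf ψ := e ▸ Nat.minFac_dvd _
      have h2 : (ψ ^ j - 1) ^ 2 = 0 := by
        have h3 : (ψ ^ j) ^ 2 = 1 := by rw [← pow_mul, mul_comm, ← hj, pow_orderOf_eq_one]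
        have h4 : (2 : F) = 0 := CharTwo.two_eq_zero
        linear_combination h3 + (1 - ψ ^ j) * h4
      have h5 : orderOf ψ ∣ j :=
        orderOf_dvd_iff_pow_eq_one.2 (sub_eq_zero.1 (pow_eq_zero_iff two_ne_zero |>.1 h2))
      have := Nat.le_of_dvd (by omega) h5
      omega
  obtain ⟨q, φ, k, m, o, q1, q2, q3, k1, k2, m1, hv, hc, ho⟩ := key hD _ hV A σ p hp p2
  refine ⟨q, q1, q2, φ, k * m, q3, k1.mul m1, hv.1, fun hs => k2 (hpt.trans ?_)⟩
  have e1 : (ψ ^ k) ^ m = 1 := by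
    rw [← pow_mul]
    exact hsc _ (sc_congr hv.2 hs)
  have e2 : (ψ ^ k) ^ o = 1 := by
    rw [← pow_mul]
    exact hone _ (by rw [pow_mul]; exact ho.2)
  have e3 := Nat.dvd_gcd (orderOf_dvd_iff_pow_eq_one.2 e1) (orderOf_dvd_iff_pow_eq_one.2 e2)
  rw [hc.gcd_eq_one, Nat.dvd_one, orderOf_eq_one_iff] at e3
  exact orderOf_dvd_iff_pow_eq_one.2 e3

theorem auxC : AUX := aux P027M.TW.dens

end Vale.Agent.P022E.Sel
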